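import Vale.Agent.P141.H876.WinS

/-!
# P141, line (A): the slot on a stopping family of cells with multiplicity

One point `(x₁, y)`; `a k q` : the cell `q` of scale `k` of `x₀` is affected.

* `cnt` : the number of the affected scales at and above a cell;
* `orth` : orthogonality of the Haar layers in `x₀`;
* `stop_one` : the affected cells with a fixed count;
* `stop_num` : the affected cells with count at most `lam`.
-/

namespace Vale.Agent.P141.H871

open Finset Matrix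
open Vale.Agent.P141.PL (iv ix hs mem_iv ix_ix card_iv)
open Vale.Agent.P141.H922 (ck iv_iv)
open Vale.Agent.P141.H43 (avv nsq nsq_nonneg)
open Vale.Agent.P141.H841 (Lm Rm Nn Nn_nonneg Lm_le)
open Vale.Agent.P141.H876 (En wn wt_Nn)

noncomputable section

open scoped Classical

variable {ι : Type*} [Fintype ι]

/-- the number of the affected scales at and above `k` over the cell `q` of scale `k` -/
def cnt (a : ℕ → ℤ → Prop) (n k : ℕ) (q : ℤ) : ℕ :=
  ((Ico k n).filter fun l => a l (ix (l - k) q)).card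

theorem cnt_pt (a : ℕ → ℤ → Prop) (n k : ℕ) (x : ℤ) :
    cnt a n k (ix k x) = ((Ico k n).filter fun l => a l (ix l x)).card := by
  unfold cnt
  congr 1
  refine filter_congr fun l hl => ?_
  rw [mem_Ico] at hl
  rw [ix_ix, Nat.add_sub_cancel' hl.1]

theorem cnt_anti (a : ℕ → ℤ → Prop) (n : ℕ) (x : ℤ) {k j : ℕ} (h : k ≤ j) :
    cnt a n j (ix j x) ≤ cnt a n k (ix k x) := by
  rw [cnt_pt, cnt_pt]
  refine card_le_card fun l hl => ?_
  rw [mem_filter, mem_Ico] at hl ⊢
  exact ⟨⟨h.trans hl.1.1, hl.1.2⟩, hl.2⟩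

theorem cnt_step (a : ℕ → ℤ → Prop) {n k : ℕ} (hk : k < n) (x : ℤ) (h : a k (ix k x)) :
    cnt a n k (ix k x) = cnt a n (k + 1) (ix (k + 1) x) + 1 := by
  rw [cnt_pt, cnt_pt]
  have e : (Ico k n).filter (fun l => a l (ix l x)) =
      insert k ((Ico (k + 1) n).filter fun l => a l (ix l x)) := by
    ext l
    simp only [mem_filter, mem_Ico, mem_insert]
    constructor
    · rintro ⟨⟨h1, h2⟩, h3⟩
      rcases eq_or_lt_of_le h1 with h4 | h4
      · exact Or.inl h4.symm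
      · exact Or.inr ⟨⟨h4, h2⟩, h3⟩
    · rintro (h1 | ⟨⟨h1, h2⟩, h3⟩)
      · subst h1
        exact ⟨⟨le_rfl, hk⟩, h⟩
      · exact ⟨⟨by omega, h2⟩, h3⟩
  rw [e, card_insert_of_notMem]
  simp

/-! ### Orthogonality in `x₀` -/

theorem sum_hs_cell (k : ℕ) (m : ℤ) : ∑ x ∈ iv (k + 1) m, hs (k + 1) x = 0 := by
  have h := iv_iv (k := k) (K := k + 1) (Nat.le_succ k) m (fun x => hs (k + 1) x)
  rw [← h, Nat.add_sub_cancel_left]
  have e : ∀ q : ℤ, ∑ x ∈ iv k q, hs (k + 1) x = 2 ^ k * (if q % 2 = 0 then (1 : ℝ) else -1) := by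
    intro q
    have : ∀ x ∈ iv k q, hs (k + 1) x = if q % 2 = 0 then (1 : ℝ) else -1 := by
      intro x hx
      rw [mem_iv] at hx
      unfold PL.hs
      rw [Nat.add_sub_cancel, hx]
    rw [sum_congr rfl this, sum_const, card_iv, nsmul_eq_mul]
    push_cast
    ring
  rw [sum_congr rfl fun q _ => e q]
  have e2 : iv 1 m = {2 * m, 2 * m + 1} := by
    ext q
    rw [mem_iv]
    unfold PL.ix
    simp only [mem_insert, mem_singleton, pow_one]
    omega
  rw [e2, sum_pair (by omega)]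
  have h1 : (2 * m) % 2 = 0 := by omega
  have h2 : ¬ (2 * m + 1) % 2 = 0 := by omega
  rw [if_pos h1, if_neg h2]
  ring

theorem sum_hs_mul {n k : ℕ} (hk : k < n) (T : ℤ) (f : ℤ → ℝ)
    (hf : ∀ x y : ℤ, ix (k + 1) x = ix (k + 1) y → f x = f y) :
    ∑ x ∈ iv n T, hs (k + 1) x * f x = 0 := by
  rw [← iv_iv (k := k + 1) (K := n) hk T (fun x => hs (k + 1) x * f x)]
  refine sum_eq_zero fun m _ => ?_
  have e : ∀ x ∈ iv (k + 1) m, hs (k + 1) x * f x = hs (k + 1) x * f (2 ^ (k + 1) * m) := by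
    intro x hx
    rw [mem_iv] at hx
    rw [hf x (2 ^ (k + 1) * m)]
    rw [hx]
    unfold PL.ix
    rw [Int.mul_ediv_cancel_left _ (by positivity)]
  rw [sum_congr rfl e, ← sum_mul, sum_hs_cell, zero_mul]

/-- **Orthogonality of the layers.** -/
theorem orth (n : ℕ) (T : ℤ) (g : ℕ → ℤ → ι → ℝ)
    (hg : ∀ j x y, ix j x = ix j y → g j x = g j y) :
    ∀ d k, k + d = n → ∑ x ∈ iv n T, nsq (∑ j ∈ Ico k n, hs (j + 1) x • g (j + 1) x) =
      ∑ j ∈ Ico k n, ∑ x ∈ iv n T, nsq (g (j + 1) x) := by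
  intro d
  induction d with
  | zero =>
    intro k hk
    have : k = n := by omega
    subst this
    simp [nsq]
  | succ d ih =>
    intro k hk
    have hkn : k < n := by omega
    have h1 := ih (k + 1) (by omega)
    rw [sum_eq_sum_Ico_succ_bot hkn, ← h1, ← sum_add_distrib]
    have h2 : ∀ x : ℤ, nsq (∑ j ∈ Ico k n, hs (j + 1) x • g (j + 1) x) =
        nsq (g (k + 1) x) + nsq (∑ j ∈ Ico (k + 1) n, hs (j + 1) x • g (j + 1) x) +
          hs (k + 1) x * (2 * (g (k + 1) x ⬝ᵥ ∑ j ∈ Ico (k + 1) n, hs (j + 1) x • g (j + 1) x)) := by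
      intro x
      rw [sum_eq_sum_Ico_succ_bot hkn, H43.nsq_add, H841.nsq_smul, sq, PL.hs_mul_self,
        smul_dotProduct, smul_eq_mul]
      ring
    rw [sum_congr rfl fun x _ => h2 x, sum_add_distrib]
    have h3 := sum_hs_mul hkn T
      (fun x => 2 * (g (k + 1) x ⬝ᵥ ∑ j ∈ Ico (k + 1) n, hs (j + 1) x • g (j + 1) x)) (by
        intro x y hxy
        show 2 * (g (k + 1) x ⬝ᵥ _) = 2 * (g (k + 1) y ⬝ᵥ _)
        rw [hg (k + 1) x y hxy]
        congr 2
        refine sum_congr rfl fun j hj => ?_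
        rw [mem_Ico] at hj
        have e : ix j x = ix j y := by
          have e1 := ix_ix (k + 1) (j - (k + 1)) x
          have e2 := ix_ix (k + 1) (j - (k + 1)) y
          rw [Nat.add_sub_cancel' hj.1] at e1 e2
          rw [← e1, ← e2, hxy]
        have e3 : ix (j + 1) x = ix (j + 1) y := by
          rw [← ix_ix j 1 x, ← ix_ix j 1 y, e]
        rw [hg (j + 1) x y e3]
        unfold PL.hs
        rw [Nat.add_sub_cancel, e])
    rw [h3, add_zero]

variable {Mx : ℕ → ℤ → Matrix ι ι ℝ} {o x1 T M3 : ℤ} {s : ℕ → ℤ → ℤ → ℝ} {n : ℕ}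

/-- the energy of the end slot at one point -/
theorem Rm_end (hs1 : ∀ k a b, |s k a b| ≤ 1) (ho : o = 1 ∨ o = -1) (y : ℤ) (hy : ix n y = M3)
    (w : ι → ℝ) :
    ∑ x0 ∈ iv n T, nsq (Rm Mx o x1 s n 0 x0 y *ᵥ w) ≤
      ∑ i ∈ range n, En Mx n T x1 M3 (i + 1) w := by
  set G : ℕ → ℤ → ι → ℝ := fun j x => (s j (ix j x) (ix j y) * hs j y) •
    (Mx j (ck o x1 y j - ix j x) *ᵥ w) with hG
  have e : ∀ x0 : ℤ, Rm Mx o x1 s n 0 x0 y *ᵥ w = ∑ i ∈ Ico 0 n, hs (i + 1) x0 •
      G (i + 1) x0 := by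
    intro x0
    unfold H841.Rm
    rw [Matrix.sum_mulVec]
    refine sum_congr rfl fun i _ => ?_
    simp only [hG]
    unfold H841.Lm
    rw [smul_mulVec, smul_smul]
    congr 1
    ring
  have h0 := orth n T G (by
    intro j x z h
    simp only [hG]
    rw [h]) n 0 (by omega)
  rw [sum_congr rfl fun x0 _ => by rw [e x0], h0, ← range_eq_Ico]
  refine sum_le_sum fun i hi => ?_
  rw [mem_range] at hi
  have h1 : ∀ x0 : ℤ, nsq ((s (i + 1) (ix (i + 1) x0) (ix (i + 1) y) * hs (i + 1) y) •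
      (Mx (i + 1) (ck o x1 y (i + 1) - ix (i + 1) x0) *ᵥ w)) ≤
      1 * Nn Mx o x1 (i + 1) x0 y w := by
    intro x0
    unfold H841.Nn
    rw [H841.nsq_smul, mul_pow, sq (hs (i + 1) y), PL.hs_mul_self, mul_one]
    refine mul_le_mul_of_nonneg_right ?_ (nsq_nonneg _)
    rw [← sq_abs]
    exact pow_le_one₀ (abs_nonneg _) (hs1 _ _ _)
  refine (sum_le_sum fun x0 _ => h1 x0).trans ?_
  have h2 := wt_Nn (Mx := Mx) (T := T) (M3 := M3) (x1 := x1) (n := n) ho (W := fun _ => (1 : ℝ))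
    (e := 1) (k := 0) (fun _ => zero_le_one) (by
      intro j
      rw [sum_const, card_iv]
      simp) (i := i + 1) (by omega) (p := y) (by omega) (by omega) w
  refine h2.trans (le_of_eq ?_)
  rw [Nat.zero_sub, pow_zero]
  ring

/-- **The affected cells with the count `c + 1`.** -/
theorem stop_one (hs1 : ∀ k a b, |s k a b| ≤ 1) (ho : o = 1 ∨ o = -1) (W : ℕ → ℤ → ℝ) {e : ℝ}
    (he : 0 ≤ e) (hW : ∀ k ≤ n, ∀ j, ∑ x ∈ iv k j, W k x ≤ e * 2 ^ k)
    (a : ℕ → ℤ → Prop) (y : ℤ) (w : ι → ℝ) (hy : ix n y = M3) (c : ℕ) :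
    ∑ k ∈ range n, ∑ x0 ∈ iv n T, (if a k (ix k x0) ∧ cnt a n k (ix k x0) = c + 1 then
      W k x0 * nsq (Rm Mx o x1 s n k x0 y *ᵥ w) else 0) ≤
      e * ∑ i ∈ range n, En Mx n T x1 M3 (i + 1) w := by
  -- the slot is constant on the cells
  have hR : ∀ k x z, ix k x = ix k z → Rm Mx o x1 s n k x y = Rm Mx o x1 s n k z y := by
    intro k x z h
    unfold H841.Rm
    refine sum_congr rfl fun i hi => ?_
    rw [mem_Ico] at hi
    have e1 := ix_ix k (i - k) x
    have e2 := ix_ix k (i - k) z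
    rw [Nat.add_sub_cancel' hi.1] at e1 e2
    have e3 : ix i x = ix i z := by rw [← e1, ← e2, h]
    have e4 : ix (i + 1) x = ix (i + 1) z := by rw [← ix_ix i 1 x, ← ix_ix i 1 z, e3]
    unfold H841.Lm PL.hs
    rw [Nat.add_sub_cancel, e3, e4]
  -- drop the weights
  have step1 : ∀ k ∈ range n, ∑ x0 ∈ iv n T, (if a k (ix k x0) ∧ cnt a n k (ix k x0) = c + 1 then
      W k x0 * nsq (Rm Mx o x1 s n k x0 y *ᵥ w) else 0) ≤
      e * ∑ x0 ∈ iv n T, (if a k (ix k x0) ∧ cnt a n k (ix k x0) = c + 1 then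
      nsq (Rm Mx o x1 s n k x0 y *ᵥ w) else 0) := by
    intro k hk
    rw [mem_range] at hk
    rw [← iv_iv (k := k) (K := n) hk.le T, ← iv_iv (k := k) (K := n) hk.le T, mul_sum]
    refine sum_le_sum fun m _ => ?_
    by_cases h : a k m ∧ cnt a n k m = c + 1
    · have e1 : ∀ x ∈ iv k m, (if a k (ix k x) ∧ cnt a n k (ix k x) = c + 1 then
          W k x * nsq (Rm Mx o x1 s n k x y *ᵥ w) else 0) =
          W k x * nsq (Rm Mx o x1 s n k (2 ^ k * m) y *ᵥ w) := by
        intro x hx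
        rw [mem_iv] at hx
        rw [hx, if_pos h, hR k x (2 ^ k * m) (by
          rw [hx]
          unfold PL.ix
          rw [Int.mul_ediv_cancel_left _ (by positivity)])]
      have e2 : ∀ x ∈ iv k m, (if a k (ix k x) ∧ cnt a n k (ix k x) = c + 1 then
          nsq (Rm Mx o x1 s n k x y *ᵥ w) else 0) =
          nsq (Rm Mx o x1 s n k (2 ^ k * m) y *ᵥ w) := by
        intro x hx
        rw [mem_iv] at hx
        rw [hx, if_pos h, hR k x (2 ^ k * m) (by
          rw [hx]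
          unfold PL.ix
          rw [Int.mul_ediv_cancel_left _ (by positivity)])]
      rw [sum_congr rfl e1, sum_congr rfl e2, ← sum_mul, sum_const, card_iv, nsmul_eq_mul]
      push_cast
      rw [← mul_assoc]
      exact mul_le_mul_of_nonneg_right (hW k hk.le m) (nsq_nonneg _)
    · have e1 : ∀ x ∈ iv k m, (if a k (ix k x) ∧ cnt a n k (ix k x) = c + 1 then
          W k x * nsq (Rm Mx o x1 s n k x y *ᵥ w) else 0) = 0 := by
        intro x hx
        rw [mem_iv] at hx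
        rw [hx, if_neg h]
      have e2 : ∀ x ∈ iv k m, (if a k (ix k x) ∧ cnt a n k (ix k x) = c + 1 then
          nsq (Rm Mx o x1 s n k x y *ᵥ w) else 0) = 0 := by
        intro x hx
        rw [mem_iv] at hx
        rw [hx, if_neg h]
      rw [sum_congr rfl e1, sum_congr rfl e2]
      simp
  refine (sum_le_sum step1).trans ?_
  rw [← mul_sum]
  refine mul_le_mul_of_nonneg_left ?_ he
  rw [sum_comm]
  -- the stopped signs
  set s' : ℕ → ℤ → ℤ → ℝ := fun i q b => if cnt a n i q < c + 1 then s i q b else 0 with hs'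
  have hs1' : ∀ k a b, |s' k a b| ≤ 1 := by
    intro k a b
    simp only [hs']
    split_ifs
    · exact hs1 _ _ _
    · simp
  refine le_trans (sum_le_sum fun x0 _ => ?_) (Rm_end (s := s') hs1' ho y hy w)
  -- at most one scale
  by_cases hex : ∃ k ∈ range n, a k (ix k x0) ∧ cnt a n k (ix k x0) = c + 1
  · obtain ⟨k, hk, h1, h2⟩ := hex
    rw [mem_range] at hk
    have huniq : ∀ j ∈ range n, j ≠ k → ¬ (a j (ix j x0) ∧ cnt a n j (ix j x0) = c + 1) := by
      rintro j hj hjk ⟨h3, h4⟩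
      rw [mem_range] at hj
      rcases lt_or_gt_of_ne hjk with h | h
      · have h5 := cnt_step a hj x0 h3
        have h6 := cnt_anti a n x0 (k := j + 1) (j := k) h
        omega
      · have h5 := cnt_step a hk x0 h1
        have h6 := cnt_anti a n x0 (k := k + 1) (j := j) h
        omega
    rw [sum_eq_single_of_mem k (mem_range.2 hk) fun j hj hjk => if_neg (huniq j hj hjk),
      if_pos ⟨h1, h2⟩]
    refine le_of_eq ?_
    congr 2
    unfold H841.Rm
    rw [← sum_Ico_consecutive _ (Nat.zero_le k) hk.le]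
    have z : ∑ i ∈ Ico 0 k, Lm Mx o x1 s' (i + 1) x0 y = 0 := by
      refine sum_eq_zero fun i hi => ?_
      rw [mem_Ico] at hi
      have h6 := cnt_anti a n x0 (k := i + 1) (j := k) hi.2
      unfold H841.Lm
      simp only [hs']
      rw [if_neg (by omega)]
      simp
    rw [z, zero_add]
    refine sum_congr rfl fun i hi => ?_
    rw [mem_Ico] at hi
    have h5 := cnt_step a hk x0 h1
    have h6 := cnt_anti a n x0 (k := k + 1) (j := i + 1) (by omega)
    unfold H841.Lm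
    simp only [hs']
    rw [if_pos (by omega)]
  · rw [sum_eq_zero]
    · exact nsq_nonneg _
    · intro k hk
      rw [if_neg fun h => hex ⟨k, hk, h⟩]

/-- **The affected cells with the count at most `lam`.** -/
theorem stop_num (hs1 : ∀ k a b, |s k a b| ≤ 1) (ho : o = 1 ∨ o = -1) (W : ℕ → ℤ → ℝ) {e : ℝ}
    (hW0 : ∀ k x, 0 ≤ W k x) (hW : ∀ k ≤ n, ∀ j, ∑ x ∈ iv k j, W k x ≤ e * 2 ^ k)
    (a : ℕ → ℤ → Prop) (y : ℤ) (w : ι → ℝ) (hy : ix n y = M3) (lam : ℕ) :
    ∑ k ∈ range n, ∑ x0 ∈ iv n T, (if a k (ix k x0) ∧ cnt a n k (ix k x0) ≤ lam then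
      W k x0 * nsq (Rm Mx o x1 s n k x0 y *ᵥ w) else 0) ≤
      lam * (e * ∑ i ∈ range n, En Mx n T x1 M3 (i + 1) w) := by
  have he : 0 ≤ e := by
    have h3 := (sum_nonneg fun x _ => hW0 0 x).trans (hW 0 (Nat.zero_le _) 0)
    simpa using h3
  have h1 : ∀ k ∈ range n, ∑ x0 ∈ iv n T, (if a k (ix k x0) ∧ cnt a n k (ix k x0) ≤ lam then
      W k x0 * nsq (Rm Mx o x1 s n k x0 y *ᵥ w) else 0) ≤
      ∑ x0 ∈ iv n T, ∑ c ∈ range lam, (if a k (ix k x0) ∧ cnt a n k (ix k x0) = c + 1 then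
      W k x0 * nsq (Rm Mx o x1 s n k x0 y *ᵥ w) else 0) := by
    intro k hk
    rw [mem_range] at hk
    refine sum_le_sum fun x0 _ => ?_
    have hn : ∀ c ∈ range lam, 0 ≤ (if a k (ix k x0) ∧ cnt a n k (ix k x0) = c + 1 then
      W k x0 * nsq (Rm Mx o x1 s n k x0 y *ᵥ w) else 0) := by
      intro c _
      split_ifs
      · exact mul_nonneg (hW0 _ _) (nsq_nonneg _)
      · exact le_rfl
    split_ifs with h
    · have h5 := cnt_step a hk x0 h.1
      have hc : cnt a n (k + 1) (ix (k + 1) x0) ∈ range lam := by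
        rw [mem_range]
        omega
      refine le_trans (le_of_eq ?_) (single_le_sum hn hc)
      rw [if_pos ⟨h.1, h5⟩]
    · exact sum_nonneg hn
  refine (sum_le_sum h1).trans ?_
  have h2 : ∑ k ∈ range n, ∑ x0 ∈ iv n T, ∑ c ∈ range lam,
      (if a k (ix k x0) ∧ cnt a n k (ix k x0) = c + 1 then
      W k x0 * nsq (Rm Mx o x1 s n k x0 y *ᵥ w) else 0) =
      ∑ c ∈ range lam, ∑ k ∈ range n, ∑ x0 ∈ iv n T,
      (if a k (ix k x0) ∧ cnt a n k (ix k x0) = c + 1 then
      W k x0 * nsq (Rm Mx o x1 s n k x0 y *ᵥ w) else 0) := by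
    rw [sum_comm]
    rw [sum_congr rfl fun x0 _ => sum_comm]
    rw [sum_comm]
    refine sum_congr rfl fun c _ => ?_
    rw [sum_comm]
  rw [h2]
  refine (sum_le_sum fun c _ => stop_one hs1 ho W he hW a y w hy c).trans (le_of_eq ?_)
  rw [sum_const, card_range, nsmul_eq_mul]

end

end Vale.Agent.P141.H871
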