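import Vale.Agent.P141.H540.GenRA

/-!
# P141, line (A): the square norm of a later generation at one point

Letters of `H540` (explicit generations) and `H841` (layers).  `HS A` is the sum of the squares of
the entries of `A` (over the columns).

* `HS_tree` : the layers of the slot whose nodes are alive, below any cell of `x0`;
* `E_HS` : the layers of the generation `g + 1` at one point `p`, with the top trace and the local
  trace `T1` of the alive cells;
* `E_HS_RG` : the same for the slot `RG` of `H540`, summed over the roots.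
-/

namespace Vale.Agent.P141.H871

open Finset Matrix
open Vale.Agent.P141.PL (Pt iv hs ix mem_iv ix_ix card_iv)
open Vale.Agent.P141.H970
open Vale.Agent.P141.H43 (nsq nsq_nonneg)
open Vale.Agent.P141.H922 (ck iv_iv tsum_iv)
open Vale.Agent.P141.H690 (MX MX_sum_le XT_symm XT_psd Qs Qs_trace_eq tsum_tie tsum_sum)
open Vale.Agent.P141.H677 (KT GT MT RT)
open Vale.Agent.P141.H540

noncomputable section

open scoped Classical

set_option linter.unusedSectionVars false

variable {ι : Type*} [Fintype ι] [DecidableEq ι]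

/-- the sum of the squares of the columns -/
def HS (A : Matrix ι ι ℝ) : ℝ := ∑ a, nsq (A *ᵥ Pi.single a 1)

theorem HS_nonneg (A : Matrix ι ι ℝ) : 0 ≤ HS A := sum_nonneg fun _ _ => nsq_nonneg _

theorem HS_smul (c : ℝ) (A : Matrix ι ι ℝ) : HS (c • A) = c ^ 2 * HS A := by
  unfold HS
  rw [mul_sum]
  refine sum_congr rfl fun a _ => ?_
  rw [smul_mulVec, H841.nsq_smul]

theorem HS_zero : HS (0 : Matrix ι ι ℝ) = 0 := by
  unfold HS
  refine sum_eq_zero fun a _ => ?_
  rw [zero_mulVec, H841.nsq_zero]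

variable {l : ℝ} {n : ℕ} {G Kq : ℕ → ℤ → Matrix ι ι ℝ} {o x1 : ℤ} {s : ℕ → ℤ → ℤ → ℝ}

/-- the tree sum over a dead cell vanishes -/
theorem tsum_dead {al : ℕ → ℤ → Prop} (hup : ∀ j < n, ∀ i, al j i → al (j + 1) (i / 2))
    (f : ℕ → ℤ → ℝ) : ∀ k ≤ n, ∀ p, ¬ al k p →
      H420.tsum (fun j i => if al j i then f j i else 0) k p = 0 := by
  intro k
  induction k with
  | zero => intro _ p _; rfl
  | succ k ih =>
    intro hk p hp
    have d1 : (2 * p) / 2 = p := by omega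
    have d2 : (2 * p + 1) / 2 = p := by omega
    have h1 := ih (by omega) (2 * p) fun h => hp (by
      have := hup k (by omega) _ h
      rwa [d1] at this)
    have h2 := ih (by omega) (2 * p + 1) fun h => hp (by
      have := hup k (by omega) _ h
      rwa [d2] at this)
    rw [H420.tsum, h1, h2, if_neg hp]
    ring

/-- the alive layers of one tree -/
theorem tsum_live (h : H420.Tr l n G Kq) {al : ℕ → ℤ → Prop}
    (hup : ∀ j < n, ∀ i, al j i → al (j + 1) (i / 2)) {T1 : ℝ} (hT0 : 0 ≤ T1)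
    (hT1 : ∀ j ≤ n, ∀ i, al j i → (G j i).trace ≤ T1) {k : ℕ} (hk : k ≤ n) (p : ℤ) :
    H420.tsum (fun j i => if al j i then HS (MX l Kq j i) else 0) k p ≤ T1 / (2 * l) := by
  have hl := h.l_pos
  by_cases hp : al k p
  · have h1 : H420.tsum (fun j i => if al j i then HS (MX l Kq j i) else 0) k p ≤
        H420.tsum (fun j i => HS (MX l Kq j i)) k p := by
      refine H483.tsum_mono (n := n) (fun j _ i => ?_) k hk p
      have := HS_nonneg (MX l Kq (j + 1) i)
      split_ifs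
      · exact le_rfl
      · exact this
    refine h1.trans ?_
    have h2 : H420.tsum (fun j i => HS (MX l Kq j i)) k p =
        ∑ a, H420.tsum (fun j i => (MX l Kq j i *ᵥ Pi.single a 1) ⬝ᵥ
          (MX l Kq j i *ᵥ Pi.single a 1)) k p :=
      tsum_sum univ (fun a j i => (MX l Kq j i *ᵥ Pi.single a 1) ⬝ᵥ
          (MX l Kq j i *ᵥ Pi.single a 1)) k p
    rw [h2]
    refine (sum_le_sum fun a _ => MX_sum_le h (Pi.single a 1) hk p).trans ?_
    rw [← sum_div]
    refine div_le_div_of_nonneg_right ?_ (by linarith)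
    refine le_trans (le_of_eq ?_) (hT1 k hk p hp)
    rw [trace]
    refine sum_congr rfl fun a _ => ?_
    rw [mulVec_single_one, single_dotProduct, one_mul, col_apply, diag_apply]
  · rw [tsum_dead hup _ k hk p hp]
    positivity

/-- **The layers with alive nodes, below any cell of `x0`.** -/
theorem HS_tree (h : H420.Tr l n G Kq) (hs1 : ∀ k a b, |s k a b| ≤ 1) (ho : o = 1 ∨ o = -1)
    {al : ℕ → ℤ → Prop} (hup : ∀ j < n, ∀ i, al j i → al (j + 1) (i / 2))
    (hal : ∀ k ≤ n, ∀ a b, s k a b ≠ 0 → al k (o - 2 - ix k x1 - b - a))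
    {T1 : ℝ} (hT0 : 0 ≤ T1) (hT1 : ∀ j ≤ n, ∀ i, al j i → (G j i).trace ≤ T1) (x3 : ℤ) :
    ∀ k ≤ n, ∀ m, H420.tsum (fun j i => HS (XS l n Kq o x1 s x3 j i)) k m ≤ 3 * T1 / (2 * l) := by
  intro k hk m
  have hc : -3 ≤ o - 2 := by rcases ho with h | h <;> omega
  have hc' : o - 2 ≤ -1 := by rcases ho with h | h <;> omega
  have h1 := tsum_tie (f := fun j i => HS (XS l n Kq o x1 s x3 j i))
    (g := fun j i => if al j i then HS (MX l Kq j i) else 0)
    (fun j i => by

      split_ifs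
      · exact HS_nonneg _
      · exact le_rfl) (x1 := x1) (x3 := x3) hc hc' (k := k) m
    (fun j _ hj i => by
      have hjn : j ≤ n := hj.trans hk
      have e : o - 2 - i - x1 / 2 ^ j - x3 / 2 ^ j = o - 2 - ix j x1 - ix j x3 - i := by
        unfold PL.ix
        ring

      rw [XS_eq hjn, HS_smul, MT_eq_MX, e]
      have e2 : ck o x1 x3 j - i = o - 2 - ix j x1 - ix j x3 - i := by
        unfold H922.ck
        ring
      rw [e2]
      by_cases h0 : s j i (ix j x3) = 0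
      · rw [h0, zero_mul]
        have h5 : (0 : ℝ) ^ 2 * HS (MX l Kq j (o - 2 - ix j x1 - ix j x3 - i)) = 0 := by ring
        rw [h5]
        split_ifs
        · exact HS_nonneg _
        · exact le_rfl
      · rw [if_pos (hal j hjn i _ h0)]
        have h2 : (s j i (ix j x3) * hs j x3) ^ 2 ≤ 1 := by
          have h3 := hs1 j i (ix j x3)
          have h4 : |s j i (ix j x3) * hs j x3| ≤ 1 := by
            rw [abs_mul, PL.abs_hs, mul_one]
            exact h3
          rw [← sq_abs]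
          exact pow_le_one₀ (abs_nonneg _) h4
        calc (s j i (ix j x3) * hs j x3) ^ 2 * HS (MX l Kq j (o - 2 - ix j x1 - ix j x3 - i))
            ≤ 1 * HS (MX l Kq j (o - 2 - ix j x1 - ix j x3 - i)) :=
              mul_le_mul_of_nonneg_right h2 (HS_nonneg _)
          _ = _ := one_mul _)
  have h2 := fun p => tsum_live h hup hT0 hT1 hk p
  have e : 3 * T1 / (2 * l) = T1 / (2 * l) + T1 / (2 * l) + T1 / (2 * l) := by ring
  rw [e]
  exact h1.trans (add_le_add (add_le_add (h2 _) (h2 _)) (h2 _))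

/-- one layer of a generation -/
theorem HS_Lm (M : ℕ → ℝ) (g : ℕ) {i : ℕ} (hi : i < n) (x0 p : ℤ) :
    HS (H841.Lm (MT l Kq) o x1 (sG l n Kq M o x1 s g) (i + 1) x0 p) =
      (if (st n M (XS l n Kq o x1 s p) (n - (i + 1)) (ix (i + 1) x0)).1 = g then 1 else 0) *
        HS (XS l n Kq o x1 s p (i + 1) (ix (i + 1) x0)) := by
  have eg := gmm_eq (l := l) (n := n) (Kq := Kq) (M := M) (o := o) (x1 := x1) (s := s)
    (show i + 1 ≤ n by omega) (ix (i + 1) x0) p
  have eL : H841.Lm (MT l Kq) o x1 (sG l n Kq M o x1 s g) (i + 1) x0 p =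
      hs (i + 1) x0 • (if (st n M (XS l n Kq o x1 s p) (n - (i + 1)) (ix (i + 1) x0)).1 = g then
        XS l n Kq o x1 s p (i + 1) (ix (i + 1) x0) else 0) := by
    unfold H841.Lm sG
    rw [eg]
    split_ifs
    · rw [XS_eq (show i + 1 ≤ n by omega), smul_smul]
      congr 1
      ring
    · rw [zero_mul, zero_smul, smul_zero]
  rw [eL, HS_smul, sq, PL.hs_mul_self, one_mul]
  split_ifs
  · rw [one_mul]
  · rw [HS_zero, zero_mul]

/-- a sum over `x0` of functions of the cells -/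
theorem sum_tree (f : ℕ → ℤ → ℝ) (n : ℕ) (t : ℤ) :
    ∑ i ∈ range n, ∑ x0 ∈ iv n t, f (i + 1) (ix (i + 1) x0) = 2 ^ n * H420.tsum f n t := by
  rw [tsum_iv, range_eq_Ico,
    sum_Ico_add' (fun i => ∑ x0 ∈ iv n t, f i (ix i x0)) 0 n 1, zero_add]
  have e : Ico 1 (n + 1) = Icc 1 n := by
    ext i
    rw [mem_Ico, mem_Icc]
    omega
  rw [e]
  refine sum_congr rfl fun i hi => ?_
  rw [mem_Icc] at hi
  rw [← iv_iv (k := i) (K := n) hi.2 t (fun x0 => f i (ix i x0)), mul_sum]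
  refine sum_congr rfl fun m _ => ?_
  have e2 : ∀ x ∈ iv i m, f i (ix i x) = f i m := by
    intro x hx
    rw [mem_iv] at hx
    rw [hx]
  rw [sum_congr rfl e2, sum_const, card_iv, nsmul_eq_mul]
  push_cast
  ring

/-- **The square norm of the generation `g + 1` at one point.** -/
theorem E_HS (h : H420.Tr l n G Kq) (hs1 : ∀ k a b, |s k a b| ≤ 1) (ho : o = 1 ∨ o = -1)
    {al : ℕ → ℤ → Prop} (hup : ∀ j < n, ∀ i, al j i → al (j + 1) (i / 2))
    (hal : ∀ k ≤ n, ∀ a b, s k a b ≠ 0 → al k (o - 2 - ix k x1 - b - a))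
    {T1 : ℝ} (hT0 : 0 ≤ T1) (hT1 : ∀ j ≤ n, ∀ i, al j i → (G j i).trace ≤ T1)
    {κ : ℕ → ℝ} (hκ : ∀ g, 0 < κ g) (g : ℕ) (t p : ℤ) :
    ∑ i ∈ range n, ∑ x0 ∈ iv n t, HS (H841.Lm (MT l Kq) o x1
        (sG l n Kq (fun g => κ g ^ 6) o x1 s (g + 1)) (i + 1) x0 p) ≤
      3 * T1 / (2 * l) * (2520000 * (∑ a, ∑ x0 ∈ iv n t,
        nsq (H841.Rm (MT l Kq) o x1 s n 0 x0 p *ᵥ Pi.single a 1)) / κ g ^ 6) := by
  have hl := h.l_pos
  have hc : -3 ≤ o - 2 ∧ o - 2 ≤ -1 := by rcases ho with h | h <;> omega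
  have hG := gn_st n (fun g => κ g ^ 6) (XS l n Kq o x1 s p)
  have hth := thS_le (s := s) hs1 p
  have hE : 0 ≤ 3 * T1 / (2 * l) := by positivity
  have h1 := hG.energy (g + 1) (f := fun j i => HS (XS l n Kq o x1 s p j i))
    (fun j i => HS_nonneg _) (E := 3 * T1 / (2 * l)) hE
    (fun k hk m => HS_tree h hs1 ho hup hal hT0 hT1 p k hk m) n le_rfl t
  have h2 := prob_top hG (by norm_num : (0 : ℝ) < 3) (fun g => pow_pos (hκ g) 6)
    (XT_symm h) (XT_psd (x1 := x1) (x3 := p) h hth hc.1 hc.2) g t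
  have h3 := mul_le_mul_of_nonneg_left h2 hE
  have e0 : ∑ i ∈ range n, ∑ x0 ∈ iv n t, HS (H841.Lm (MT l Kq) o x1
        (sG l n Kq (fun g => κ g ^ 6) o x1 s (g + 1)) (i + 1) x0 p) =
      2 ^ n * H420.tsum (fun j i =>
        (if (st n (fun g => κ g ^ 6) (XS l n Kq o x1 s p) (n - j) i).1 = g + 1 then 1 else 0) *
          HS (XS l n Kq o x1 s p j i)) n t := by
    rw [← sum_tree]
    refine sum_congr rfl fun i hi => sum_congr rfl fun x0 _ => ?_
    rw [HS_Lm _ _ (mem_range.1 hi)]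
  have h4 : (2 : ℝ) ^ n * (Qs (XS l n Kq o x1 s p) n t).trace =
      ∑ a, ∑ x0 ∈ iv n t, nsq (H841.Rm (MT l Kq) o x1 s n 0 x0 p *ᵥ Pi.single a 1) := by
    unfold XS
    rw [Qs_trace_eq (XT_symm h), mul_sum]
    refine sum_congr rfl fun a _ => ?_
    exact (Rm_energy_all (l := l) (Kq := Kq) (o := o) (x1 := x1) (s := s) t p _).symm
  rw [e0, ← h4]
  have h5 := mul_le_mul_of_nonneg_left (h1.trans h3) (by positivity : (0 : ℝ) ≤ 2 ^ n)
  refine h5.trans (le_of_eq ?_)
  ring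

/-! ### The slot `RG` -/

section slot

variable {Al : ℕ → Pt → Prop} {K : ℕ} {P : Pt} {sg : ℕ → Pt → ℝ} {u : ℤ → ℤ → ι → ℝ}
  {κ : ℕ → ℝ}

/-- **The square norm of the generation `g + 1` of `RT` at one point, summed over the roots.** -/
theorem E_HS_RG (hl : 0 < l) (ho : o = 1 ∨ o = -1) (hsg : ∀ k m, |sg k m| ≤ 1)
    (hκ : ∀ g, 0 < κ g) {al : ℕ → ℤ → Prop} (hup : ∀ j < K, ∀ i, al j i → al (j + 1) (i / 2))
    (hal : ∀ k ≤ K, ∀ a b,
      ((b, o - 2 - a - ix k x1 - b, ix k x1) : Pt) ∈ H677.sN Al o K P (2 ^ k * a) k →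
        al k (o - 2 - ix k x1 - b - a))
    {T1 : ℝ} (hT0 : 0 ≤ T1) (hT1 : ∀ j ≤ K, ∀ i, al j i → (GT u x1 j i).trace ≤ T1)
    (g : ℕ) (T : Finset ℤ) (p : ℤ) :
    ∑ t ∈ T, ∑ i ∈ range K, ∑ x0 ∈ iv K t, HS (H841.Lm (MT l (KT l u x1)) o x1
        (sgn Al o K P sg l u κ (g + 1) x1) (i + 1) x0 p) ≤
      3 * T1 / (2 * l) * (2520000 * (2 ^ K * ((2 * l)⁻¹ * (GT u x1 K P.2.1).trace)) / κ g ^ 6) := by
  have h1 := sum_le_sum fun t (_ : t ∈ T) => E_HS (x1 := x1) (H677.tr_T hl K u x1)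
    (s0_le (Al := Al) (o := o) (K := K) (P := P) hsg x1) ho hup
    (fun k hk a b h0 => hal k hk a b (by
      by_contra h
      apply h0
      unfold s0
      rw [if_neg h])) hT0 hT1 hκ g t p
  refine h1.trans ?_
  rw [← mul_sum]
  refine mul_le_mul_of_nonneg_left ?_ (by positivity)
  rw [← sum_div, ← mul_sum]
  refine div_le_div_of_nonneg_right (mul_le_mul_of_nonneg_left ?_ (by norm_num))
    (pow_pos (hκ g) 6).le
  rw [sum_comm]
  have h2 : ∀ a : ι, ∑ t ∈ T, ∑ x0 ∈ iv K t, nsq (H841.Rm (MT l (KT l u x1)) o x1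
      (s0 Al o K P sg x1) K 0 x0 p *ᵥ Pi.single a 1) ≤
      2 ^ K * ((2 * l)⁻¹ * ((Pi.single a (1 : ℝ) : ι → ℝ) ⬝ᵥ GT u x1 K P.2.1 *ᵥ
        Pi.single a 1)) := by
    intro a
    refine le_trans (le_of_eq (sum_congr rfl fun t _ => sum_congr rfl fun x0 _ => ?_))
      (H483.RT_end (A := Al) (o := o) (M := P) hl hsg T p x1 (Pi.single a 1))
    rw [RT_Rm]
    rfl
  refine (sum_le_sum fun a _ => h2 a).trans (le_of_eq ?_)
  rw [← mul_sum, ← mul_sum]
  congr 2
  rw [Matrix.trace]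
  refine sum_congr rfl fun a _ => ?_
  rw [mulVec_single_one, single_dotProduct, one_mul, col_apply, diag_apply]

end slot

end

end Vale.Agent.P141.H871
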